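import Vale.Agent.P305.H529.Main

set_option autoImplicit false

namespace Vale.Agent.Results.P305.ChordalOddHeightCoDisk

open Vale.Agent.P305 Vale.Agent.P305.H529

/-- (1) Maximum matching in all graphs: one bipartite call on twice the size, plus
`O((n+m) log n)` for every odd cycle of a largest induced odd cycle packing. (2) An almost-linear
time algorithm for bipartite graphs gives one for all graphs with subpolynomial packing number.
(3), (4) The packing number is at most the independence number, and at most the number of cliques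
whose removal leaves a bipartite graph. (5) Chordal graphs take `O(log n)` times the time of
bipartite graphs of twice the size, plus `O((n + m) log² n)`, so (6) almost-linear time if bipartite
graphs have it. (7) All graphs take, up to constant factors and an additive linear term, the time
of comparability graphs of height three, so (8) almost-linear time is achievable on these if and
only if it is achievable on all graphs.

New: (9) if deleting `X` leaves a bipartite graph, the packing number is at most the independence
number of `G[X]`. (10) Complements of disk graphs (with respect to any norm on a plane) have packing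
number at most one; (11) if deleting `X` leaves such a graph, the packing number is at most one plus
the independence number of `G[X]`. (12) So maximum matching in the complements of disk graphs takes
the time of bipartite graphs of twice the size, plus `O((n + m) log n)`, and (13) almost-linear time
if bipartite graphs have it. (14) The same holds for all graphs from which a vertex set `X` with
subpolynomial independence number of `G[X]` can be deleted so that a bipartite graph or the
complement of a disk graph remains. -/
theorem result :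
    (∀ T : ℕ → ℕ → ℕ, (∀ n n' m m', n ≤ n' → m ≤ m' → T n m ≤ T n' m') →
      (∃ P, Solves P (fun _ G => G.IsBipartite) fun n G => T n G.edgeSet.ncard) →
      ∃ P C, Solves P (fun _ _ => True) fun n G =>
        C * (T (2 * n) (2 * G.edgeSet.ncard) +
          (oddPacking G + 1) * ((Nat.log 2 n + 1) * (n + G.edgeSet.ncard + 1)))) ∧
    (AlmostLinear (fun _ G => G.IsBipartite) → ∀ κ : ℕ → ℕ,
      (∀ ε : ℝ, 0 < ε → ∃ c : ℝ, ∀ N : ℕ, (κ N : ℝ) ≤ c * ((N : ℝ) + 1) ^ ε) →
      AlmostLinear fun n G => oddPacking G ≤ κ (n + G.edgeSet.ncard)) ∧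
    (∀ (n : ℕ) (G : SimpleGraph (Fin n)), oddPacking G ≤ G.indepNum) ∧
    (∀ (n : ℕ) (G : SimpleGraph (Fin n)) (c : ℕ) (K : Fin c → Set (Fin n)),
      (∀ i, G.IsClique (K i)) → (G.induce {v | ∀ i, v ∉ K i}).IsBipartite → oddPacking G ≤ c) ∧
    (∀ T : ℕ → ℕ → ℕ, (∀ n n' m m', n ≤ n' → m ≤ m' → T n m ≤ T n' m') →
      (∃ P, Solves P (fun _ G => G.IsBipartite) fun n G => T n G.edgeSet.ncard) →
      ∃ P C, Solves P (fun _ G => IsChordal G) fun n G =>
        C * ((Nat.log 2 n + 1) * (T (2 * n) (2 * G.edgeSet.ncard) +
          (Nat.log 2 n + 1) * (n + G.edgeSet.ncard + 1)))) ∧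
    (AlmostLinear (fun _ G => G.IsBipartite) → AlmostLinear fun _ G => IsChordal G) ∧
    (∀ T : ℕ → ℕ → ℕ, (∃ P, Solves P Comp3 fun n G => T n G.edgeSet.ncard) →
      ∃ P C, Solves P (fun _ _ => True) fun n G =>
        C * (T (n + 2 * G.edgeSet.ncard) (5 * G.edgeSet.ncard) + n + G.edgeSet.ncard + 1)) ∧
    (AlmostLinear Comp3 ↔ AlmostLinear fun _ _ => True) ∧
    (∀ (n : ℕ) (G : SimpleGraph (Fin n)) (X : Set (Fin n)),
      (G.induce Xᶜ).IsBipartite → oddPacking G ≤ (G.induce X).indepNum) ∧
    (∀ (n : ℕ) (G : SimpleGraph (Fin n)), IsCoDisk G → oddPacking G ≤ 1) ∧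
    (∀ (n : ℕ) (G : SimpleGraph (Fin n)) (X : Set (Fin n)),
      IsCoDisk (G.induce Xᶜ) → oddPacking G ≤ (G.induce X).indepNum + 1) ∧
    (∀ T : ℕ → ℕ → ℕ, (∀ n n' m m', n ≤ n' → m ≤ m' → T n m ≤ T n' m') →
      (∃ P, Solves P (fun _ G => G.IsBipartite) fun n G => T n G.edgeSet.ncard) →
      ∃ P C, Solves P (fun _ G => IsCoDisk G) fun n G =>
        C * (T (2 * n) (2 * G.edgeSet.ncard) +
          (Nat.log 2 n + 1) * (n + G.edgeSet.ncard + 1))) ∧
    (AlmostLinear (fun _ G => G.IsBipartite) → AlmostLinear fun _ G => IsCoDisk G) ∧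
    (AlmostLinear (fun _ G => G.IsBipartite) → ∀ κ : ℕ → ℕ,
      (∀ ε : ℝ, 0 < ε → ∃ c : ℝ, ∀ N : ℕ, (κ N : ℝ) ≤ c * ((N : ℝ) + 1) ^ ε) →
      AlmostLinear fun n G => ∃ X : Set (Fin n),
        (G.induce X).indepNum ≤ κ (n + G.edgeSet.ncard) ∧
        ((G.induce Xᶜ).IsBipartite ∨ IsCoDisk (G.induce Xᶜ))) :=
  ⟨odd_reduction, odd_almostLinear, fun _ G => oddPacking_le_indepNum G,
    fun _ G _ K hK hB => oddPacking_le_cliques G K hK hB, chordal_reduction, chordal_almostLinear,
    all_of_comp3, almostLinear_comp3, fun _ G X h => oddPacking_le_bip G X h,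
    fun _ G h => oddPacking_codisk G h, fun _ G X h => oddPacking_le_codisk G X h,
    codisk_reduction, codisk_almostLinear, near_almostLinear⟩

end Vale.Agent.Results.P305.ChordalOddHeightCoDisk
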