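import Vale.Agent.P305.H529.Ball.Final

set_option autoImplicit false

namespace Vale.Agent.Results.P305.MatchingParameters

open Vale.Agent.P305 Vale.Agent.P305.H529 Vale.Agent.P305.H287

/-- Part I. (1) Maximum matching in all graphs: one bipartite call on twice the size, plus
`searches G + 1` searches of `O((n+m) log n)` time. (2) The bipartite call alone, plus linear time,
gives a matching with at most `searches G` edges less than a maximum matching. (3) An almost-linear
time algorithm for bipartite graphs gives one for all graphs with subpolynomial `searches G`.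
(4) `searches G` is at most half of the odd packing number, (5) at most `|S| - |M|` for every vertex
cover `S` and matching `M`, and (6) at most the size of an induced matching of edges meeting `X` if
after the deletion of `X` every component has packing number at most one. (7) So almost-linear time
for all graphs with such an `X` for which this size is subpolynomial. (8) Graphs each of whose
components has packing number at most one need one bipartite call and `O((n+m) log n)` time.

Part II, the packing number `p(U) = oddPackingIn G U` of induced subgraphs. (9) `p(U) = 0` if `G[U]`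
is bipartite; `p(U) ≤ 1` if `G[U]` is (10) the complement of a disk graph, for any norm on a plane,
(11) the complement of a unit ball graph of three-dimensional space, or (12) the complement of a
circular-arc graph; (13) `p(U) ≤ d` if the complement of `G[U]` has boxicity at most `d`.
(14) `p(Y) ≤ i(X) + p(Y \ X)`, where `i(X)` is the largest size of an induced matching of edges
meeting `X`, and (15) `i(X) ≤ α(G[X])`. The packing number is at most (16) the induced matching
number, (17) the independence number, (18) the number of cliques whose removal leaves a bipartite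
graph.

Part III. (19), (20) The time bound and the almost-linear class in terms of the packing number.
(21) Chordal graphs take `O(log n)` times the time of bipartite graphs of twice the size, plus
`O((n + m) log² n)`, so (22) almost-linear time if bipartite graphs have it. (23) All graphs take, up
to constant factors and an additive linear term, the time of comparability graphs of height three, so
(24) almost-linear time is achievable on these if and only if it is achievable on all graphs. -/
theorem result :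
    (∀ T : ℕ → ℕ → ℕ, (∀ n n' m m', n ≤ n' → m ≤ m' → T n m ≤ T n' m') →
      (∃ P, Solves P (fun _ G => G.IsBipartite) fun n G => T n G.edgeSet.ncard) →
      ∃ P C, Solves P (fun _ _ => True) fun n G =>
        C * (T (2 * n) (2 * G.edgeSet.ncard) +
          (searches G + 1) * ((Nat.log 2 n + 1) * (n + G.edgeSet.ncard + 1)))) ∧
    (∀ T : ℕ → ℕ → ℕ, (∀ n n' m m', n ≤ n' → m ≤ m' → T n m ≤ T n' m') →
      (∃ P, Solves P (fun _ G => G.IsBipartite) fun n G => T n G.edgeSet.ncard) →
      ∃ P C, SolvesUpTo P (fun _ G => searches G) fun n G =>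
        C * (T (2 * n) (2 * G.edgeSet.ncard) + n + G.edgeSet.ncard + 1)) ∧
    (AlmostLinear (fun _ G => G.IsBipartite) → ∀ κ : ℕ → ℕ,
      (∀ ε : ℝ, 0 < ε → ∃ c : ℝ, ∀ N : ℕ, (κ N : ℝ) ≤ c * ((N : ℝ) + 1) ^ ε) →
      AlmostLinear fun n G => searches G ≤ κ (n + G.edgeSet.ncard)) ∧
    (∀ (n : ℕ) (G : SimpleGraph (Fin n)), 2 * searches G ≤ oddPacking G) ∧
    (∀ (n : ℕ) (G : SimpleGraph (Fin n)) (S : Set (Fin n)) (M : G.Subgraph),
      G.IsVertexCover S → M.IsMatching → searches G ≤ S.ncard - M.edgeSet.ncard) ∧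
    (∀ (n : ℕ) (G : SimpleGraph (Fin n)) (X : Set (Fin n)),
      (∀ K : G.ConnectedComponent, oddPackingIn G (K.supp \ X) ≤ 1) →
      searches G ≤ inducedMatchingAt G X) ∧
    (AlmostLinear (fun _ G => G.IsBipartite) → ∀ κ : ℕ → ℕ,
      (∀ ε : ℝ, 0 < ε → ∃ c : ℝ, ∀ N : ℕ, (κ N : ℝ) ≤ c * ((N : ℝ) + 1) ^ ε) →
      AlmostLinear fun n G => ∃ X : Set (Fin n),
        inducedMatchingAt G X ≤ κ (n + G.edgeSet.ncard) ∧
        ∀ K : G.ConnectedComponent, oddPackingIn G (K.supp \ X) ≤ 1) ∧
    (∀ T : ℕ → ℕ → ℕ, (∀ n n' m m', n ≤ n' → m ≤ m' → T n m ≤ T n' m') →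
      (∃ P, Solves P (fun _ G => G.IsBipartite) fun n G => T n G.edgeSet.ncard) →
      ∃ P C, Solves P (fun _ G => ∀ K : G.ConnectedComponent, oddPackingIn G K.supp ≤ 1)
        fun n G => C * (T (2 * n) (2 * G.edgeSet.ncard) +
          (Nat.log 2 n + 1) * (n + G.edgeSet.ncard + 1))) ∧
    (∀ (n : ℕ) (G : SimpleGraph (Fin n)) (U : Set (Fin n)),
      (G.induce U).IsBipartite → oddPackingIn G U = 0) ∧
    (∀ (n : ℕ) (G : SimpleGraph (Fin n)) (U : Set (Fin n)),
      IsCoDisk (G.induce U) → oddPackingIn G U ≤ 1) ∧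
    (∀ (n : ℕ) (G : SimpleGraph (Fin n)) (U : Set (Fin n)),
      IsCoBall (G.induce U) → oddPackingIn G U ≤ 1) ∧
    (∀ (n : ℕ) (G : SimpleGraph (Fin n)) (U : Set (Fin n)),
      IsCoArc (G.induce U) → oddPackingIn G U ≤ 1) ∧
    (∀ (n d : ℕ) (G : SimpleGraph (Fin n)) (U : Set (Fin n)),
      IsCoBox d (G.induce U) → oddPackingIn G U ≤ d) ∧
    (∀ (n : ℕ) (G : SimpleGraph (Fin n)) (X Y : Set (Fin n)),
      oddPackingIn G Y ≤ inducedMatchingAt G X + oddPackingIn G (Y \ X)) ∧
    (∀ (n : ℕ) (G : SimpleGraph (Fin n)) (X : Set (Fin n)),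
      inducedMatchingAt G X ≤ (G.induce X).indepNum) ∧
    (∀ (n : ℕ) (G : SimpleGraph (Fin n)), oddPacking G ≤ inducedMatchingAt G Set.univ) ∧
    (∀ (n : ℕ) (G : SimpleGraph (Fin n)), oddPacking G ≤ G.indepNum) ∧
    (∀ (n : ℕ) (G : SimpleGraph (Fin n)) (c : ℕ) (K : Fin c → Set (Fin n)),
      (∀ i, G.IsClique (K i)) → (G.induce {v | ∀ i, v ∉ K i}).IsBipartite → oddPacking G ≤ c) ∧
    (∀ T : ℕ → ℕ → ℕ, (∀ n n' m m', n ≤ n' → m ≤ m' → T n m ≤ T n' m') →
      (∃ P, Solves P (fun _ G => G.IsBipartite) fun n G => T n G.edgeSet.ncard) →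
      ∃ P C, Solves P (fun _ _ => True) fun n G =>
        C * (T (2 * n) (2 * G.edgeSet.ncard) +
          (oddPacking G + 1) * ((Nat.log 2 n + 1) * (n + G.edgeSet.ncard + 1)))) ∧
    (AlmostLinear (fun _ G => G.IsBipartite) → ∀ κ : ℕ → ℕ,
      (∀ ε : ℝ, 0 < ε → ∃ c : ℝ, ∀ N : ℕ, (κ N : ℝ) ≤ c * ((N : ℝ) + 1) ^ ε) →
      AlmostLinear fun n G => oddPacking G ≤ κ (n + G.edgeSet.ncard)) ∧
    (∀ T : ℕ → ℕ → ℕ, (∀ n n' m m', n ≤ n' → m ≤ m' → T n m ≤ T n' m') →
      (∃ P, Solves P (fun _ G => G.IsBipartite) fun n G => T n G.edgeSet.ncard) →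
      ∃ P C, Solves P (fun _ G => IsChordal G) fun n G =>
        C * ((Nat.log 2 n + 1) * (T (2 * n) (2 * G.edgeSet.ncard) +
          (Nat.log 2 n + 1) * (n + G.edgeSet.ncard + 1)))) ∧
    (AlmostLinear (fun _ G => G.IsBipartite) → AlmostLinear fun _ G => IsChordal G) ∧
    (∀ T : ℕ → ℕ → ℕ, (∃ P, Solves P Comp3 fun n G => T n G.edgeSet.ncard) →
      ∃ P C, Solves P (fun _ _ => True) fun n G =>
        C * (T (n + 2 * G.edgeSet.ncard) (5 * G.edgeSet.ncard) + n + G.edgeSet.ncard + 1)) ∧
    (AlmostLinear Comp3 ↔ AlmostLinear fun _ _ => True) :=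
  ⟨comp_reduction, apx_reductionW, comp_almostLinear, fun _ G => two_mul_searches_le G,
    fun _ _ _ _ hS hM => searches_le_cover hS hM, fun _ G X h => searches_le_im G X h,
    comp_near_almostLinear, one_reduction, fun _ G U h => in_bip G U h,
    fun _ G U h => in_codisk G U h, fun _ G U h => in_coball G U h, fun _ G U h => in_coarc G U h,
    fun _ _ G U h => in_cobox G U h, fun _ G X Y => in_le_add G X Y,
    fun _ G X => inducedMatchingAt_le_indepNum G X, fun _ G => oddPacking_le_inducedMatching G,
    fun _ G => oddPacking_le_indepNum G, fun _ G _ K hK hB => oddPacking_le_cliques G K hK hB,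
    odd_reduction, odd_almostLinear, chordal_reduction, chordal_almostLinear,
    all_of_comp3, almostLinear_comp3⟩

end Vale.Agent.Results.P305.MatchingParameters
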