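import Vale.Agent.P305.H607.Gap

set_option autoImplicit false

namespace Vale.Agent.Results.P305.OddSurplus

open Vale.Agent.P305

/-- (1)-(8) as in `ChordalOddHeight`. (9) Maximum matching in all graphs: one bipartite call on
twice the size, plus `surplus G + 1` searches of `O((n+m) log n)` time, (10) so an almost-linear
time algorithm for bipartite graphs gives one for all graphs with subpolynomial surplus, (11) in
particular for all graphs in each of whose components any two vertex-disjoint odd cycles are joined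
by an edge. (12) The bipartite call alone, plus linear time, gives a matching with at most
`surplus G` edges less than a maximum matching. (13) The surplus is at most half of the odd packing
number. (14) `2 ν(G[X]) ≤ 2 ν_f(G[X]) ≤ 2 ν(G[X]) + p(G[X])` for every vertex set `X`. -/
theorem result :
    (∀ T : ℕ → ℕ → ℕ, (∀ n n' m m', n ≤ n' → m ≤ m' → T n m ≤ T n' m') →
      (∃ P, Solves P (fun _ G => G.IsBipartite) fun n G => T n G.edgeSet.ncard) →
      ∃ P C, Solves P (fun _ _ => True) fun n G =>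
        C * (T (2 * n) (2 * G.edgeSet.ncard) +
          (oddPacking G + 1) * ((Nat.log 2 n + 1) * (n + G.edgeSet.ncard + 1)))) ∧
    (AlmostLinear (fun _ G => G.IsBipartite) → ∀ κ : ℕ → ℕ,
      (∀ ε : ℝ, 0 < ε → ∃ c : ℝ, ∀ N : ℕ, (κ N : ℝ) ≤ c * ((N : ℝ) + 1) ^ ε) →
      AlmostLinear fun n G => oddPacking G ≤ κ (n + G.edgeSet.ncard)) ∧
    (∀ (n : ℕ) (G : SimpleGraph (Fin n)), oddPacking G ≤ G.indepNum) ∧
    (∀ (n : ℕ) (G : SimpleGraph (Fin n)) (c : ℕ) (K : Fin c → Set (Fin n)),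
      (∀ i, G.IsClique (K i)) → (G.induce {v | ∀ i, v ∉ K i}).IsBipartite → oddPacking G ≤ c) ∧
    (∀ T : ℕ → ℕ → ℕ, (∀ n n' m m', n ≤ n' → m ≤ m' → T n m ≤ T n' m') →
      (∃ P, Solves P (fun _ G => G.IsBipartite) fun n G => T n G.edgeSet.ncard) →
      ∃ P C, Solves P (fun _ G => IsChordal G) fun n G =>
        C * ((Nat.log 2 n + 1) * (T (2 * n) (2 * G.edgeSet.ncard) +
          (Nat.log 2 n + 1) * (n + G.edgeSet.ncard + 1)))) ∧
    (AlmostLinear (fun _ G => G.IsBipartite) → AlmostLinear fun _ G => IsChordal G) ∧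
    (∀ T : ℕ → ℕ → ℕ, (∃ P, Solves P Comp3 fun n G => T n G.edgeSet.ncard) →
      ∃ P C, Solves P (fun _ _ => True) fun n G =>
        C * (T (n + 2 * G.edgeSet.ncard) (5 * G.edgeSet.ncard) + n + G.edgeSet.ncard + 1)) ∧
    (AlmostLinear Comp3 ↔ AlmostLinear fun _ _ => True) ∧
    (∀ T : ℕ → ℕ → ℕ, (∀ n n' m m', n ≤ n' → m ≤ m' → T n m ≤ T n' m') →
      (∃ P, Solves P (fun _ G => G.IsBipartite) fun n G => T n G.edgeSet.ncard) →
      ∃ P C, Solves P (fun _ _ => True) fun n G =>
        C * (T (2 * n) (2 * G.edgeSet.ncard) +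
          (surplus G + 1) * ((Nat.log 2 n + 1) * (n + G.edgeSet.ncard + 1)))) ∧
    (AlmostLinear (fun _ G => G.IsBipartite) → ∀ κ : ℕ → ℕ,
      (∀ ε : ℝ, 0 < ε → ∃ c : ℝ, ∀ N : ℕ, (κ N : ℝ) ≤ c * ((N : ℝ) + 1) ^ ε) →
      AlmostLinear fun n G => surplus G ≤ κ (n + G.edgeSet.ncard)) ∧
    (AlmostLinear (fun _ G => G.IsBipartite) →
      AlmostLinear fun n G => ∀ K : G.ConnectedComponent, oddPackingIn G K.supp ≤ 1) ∧
    (∀ T : ℕ → ℕ → ℕ, (∀ n n' m m', n ≤ n' → m ≤ m' → T n m ≤ T n' m') →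
      (∃ P, Solves P (fun _ G => G.IsBipartite) fun n G => T n G.edgeSet.ncard) →
      ∃ P C, SolvesUpTo P (fun _ G => surplus G) fun n G =>
        C * (T (2 * n) (2 * G.edgeSet.ncard) + n + G.edgeSet.ncard + 1)) ∧
    (∀ (n : ℕ) (G : SimpleGraph (Fin n)), 2 * surplus G ≤ oddPacking G) ∧
    (∀ (n : ℕ) (G : SimpleGraph (Fin n)) (X : Set (Fin n)),
      matchedIn G X ≤ assignedIn G X ∧
      assignedIn G X ≤ matchedIn G X + oddPackingIn G X) :=
  ⟨odd_reduction, odd_almostLinear, fun _ G => oddPacking_le_indepNum G,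
    fun _ G _ K hK hB => oddPacking_le_cliques G K hK hB, chordal_reduction, chordal_almostLinear,
    all_of_comp3, almostLinear_comp3, surplus_reduction, surplus_almostLinear,
    component_almostLinear, apx_reduction, fun _ G => two_mul_surplus_le G,
    fun _ G X => ⟨matchedIn_le_assignedIn G X, assignedIn_le_add G X⟩⟩

end Vale.Agent.Results.P305.OddSurplus
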